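import Vale.Agent.P090.Main

/-! Negative answer to Kalton's question: a countable uniformly discrete metric space whose
Lipschitz-free space fails the bounded approximation property. -/

namespace Vale.Agent.Results.P090.KaltonNegative

open Vale.Agent.P090

theorem result : ∃ (M : Type) (_ : MetricSpace M) (o : M), Countable M ∧
    (∀ x y : M, x ≠ y → 1 ≤ dist x y) ∧ ¬ HasBAP (FreeSpace o) :=
  main

end Vale.Agent.Results.P090.KaltonNegative
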